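import Vale.Agent.P358.GAD.StConc

/-!
Concavity of the unnormalised entropy: `St_add_ge` is proved in `GAD/StConc`; this file only
re-exports it (so that both import paths work and there is no name clash).
-/
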